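import Mathlib

/-!
# P054: distinct distances in `ℝ^d` for sets without rich perpendicular bisectors
-/

namespace Vale.Agent.Results.P054.PoorBisectors

open Finset

variable {d : ℕ}

/-- `pinned P x` is the set `D_x(P)` of distances from `x` to the other points of `P`. -/
noncomputable def pinned (P : Finset (EuclideanSpace ℝ (Fin d))) (x : EuclideanSpace ℝ (Fin d)) : Finset ℝ :=
  (P.erase x).image (fun y => dist y x)

/-- `numPinned P x = |D_x(P)|`. -/
noncomputable def numPinned (P : Finset (EuclideanSpace ℝ (Fin d))) (x : EuclideanSpace ℝ (Fin d)) : ℕ := (pinned P x).card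

open Classical in
/-- For any two distinct points `q`, `r` of `P`, at most `B` points of `P` are equidistant from
`q` and `r` (lie on their perpendicular bisector). -/
def BisectorBound (P : Finset (EuclideanSpace ℝ (Fin d))) (B : ℕ) : Prop :=
  ∀ q ∈ P, ∀ r ∈ P, q ≠ r → (P.filter fun x => dist q x = dist r x).card ≤ B

open Classical in
/-- number of ordered pairs of other points at the same distance from `x` -/
noncomputable def iso (P : Finset (EuclideanSpace ℝ (Fin d))) (x : EuclideanSpace ℝ (Fin d)) : ℕ :=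
  (((P.erase x) ×ˢ (P.erase x)).filter fun qr => dist qr.1 x = dist qr.2 x).card

lemma sq_le_numPinned_mul_iso (P : Finset (EuclideanSpace ℝ (Fin d))) (x : EuclideanSpace ℝ (Fin d)) :
    (P.erase x).card ^ 2 ≤ numPinned P x * iso P x := by
  classical
  set s := P.erase x with hs
  set f : EuclideanSpace ℝ (Fin d) → ℝ := fun y => dist y x with hf
  have h1 : s.card = ∑ d ∈ s.image f, (s.filter fun a => f a = d).card :=
    card_eq_sum_card_image f s
  have h2 : iso P x = ∑ d ∈ s.image f, (s.filter fun a => f a = d).card ^ 2 := by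
    unfold iso
    rw [card_eq_sum_card_fiberwise (f := fun qr : EuclideanSpace ℝ (Fin d) × EuclideanSpace ℝ (Fin d) => f qr.1) (t := s.image f)]
    · refine sum_congr rfl fun d _ => ?_
      rw [sq, ← card_product]
      congr 1
      ext ⟨q, r⟩
      simp only [mem_filter, mem_product]
      constructor
      · rintro ⟨⟨⟨hq, hr⟩, he⟩, hd⟩
        exact ⟨⟨hq, hd⟩, ⟨hr, by rw [← hd]; exact he.symm⟩⟩
      · rintro ⟨⟨hq, hd⟩, ⟨hr, hd'⟩⟩
        exact ⟨⟨⟨hq, hr⟩, by show f q = f r; rw [hd, hd']⟩, hd⟩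
    · intro qr hqr
      simp only [coe_filter, mem_product, Set.mem_ofPred_eq] at hqr
      exact mem_coe.mpr (mem_image_of_mem f hqr.1.1)
  rw [h2, h1]
  exact sq_sum_le_card_mul_sum_sq

lemma iso_le (P : Finset (EuclideanSpace ℝ (Fin d))) (x : EuclideanSpace ℝ (Fin d)) :
    iso P x ≤ (P.erase x).card
      + ∑ qr ∈ P.offDiag, if dist qr.1 x = dist qr.2 x then 1 else 0 := by
  classical
  rw [← card_filter, ← diag_card]
  unfold iso
  refine le_trans (card_le_card ?_) (card_union_le _ _)
  intro ⟨q, r⟩ h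
  simp only [mem_filter, mem_product, mem_erase] at h
  simp only [mem_union, mem_diag, mem_filter, mem_offDiag, mem_erase]
  by_cases hqr : q = r
  · left
    exact ⟨h.1.1, hqr⟩
  · right
    exact ⟨⟨h.1.1.2, h.1.2.2, hqr⟩, h.2⟩

lemma sum_iso_le (P : Finset (EuclideanSpace ℝ (Fin d))) (B : ℕ) (hB : BisectorBound P B) :
    ∑ x ∈ P, iso P x ≤ P.card * ((P.card - 1) * (B + 1)) := by
  classical
  calc ∑ x ∈ P, iso P x
      ≤ ∑ x ∈ P, ((P.card - 1) + ∑ qr ∈ P.offDiag, if dist qr.1 x = dist qr.2 x then 1 else 0) := by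
        refine sum_le_sum fun x hx => ?_
        have := iso_le P x
        rwa [card_erase_of_mem hx] at this
    _ = P.card * (P.card - 1)
        + ∑ qr ∈ P.offDiag, ∑ x ∈ P, if dist qr.1 x = dist qr.2 x then 1 else 0 := by
        rw [sum_add_distrib, sum_const, smul_eq_mul, sum_comm]
    _ ≤ P.card * (P.card - 1) + ∑ qr ∈ P.offDiag, B := by
        refine Nat.add_le_add_left (sum_le_sum fun qr hqr => ?_) _
        rw [mem_offDiag] at hqr
        rw [← card_filter]
        convert hB qr.1 hqr.1 qr.2 hqr.2.1 hqr.2.2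
    _ = P.card * ((P.card - 1) * (B + 1)) := by
        rw [sum_const, smul_eq_mul, offDiag_card]
        have : P.card * P.card - P.card = P.card * (P.card - 1) := by
          rw [Nat.mul_sub, mul_one]
        rw [this]
        ring

lemma exists_pin (P : Finset (EuclideanSpace ℝ (Fin d))) (B : ℕ) (hB : BisectorBound P B) (hP : P.Nonempty) :
    ∃ x ∈ P, P.card - 1 ≤ (B + 1) * numPinned P x := by
  have hsum : ∑ x ∈ P, iso P x ≤ ∑ _x ∈ P, (P.card - 1) * (B + 1) := by
    rw [sum_const, smul_eq_mul]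
    exact sum_iso_le P B hB
  obtain ⟨x, hx, hxI⟩ := exists_le_of_sum_le hP hsum
  refine ⟨x, hx, ?_⟩
  have h1 := sq_le_numPinned_mul_iso P x
  rw [card_erase_of_mem hx] at h1
  rcases Nat.eq_zero_or_pos (P.card - 1) with h0 | h0
  · rw [h0]; exact Nat.zero_le _
  · have h2 : (P.card - 1) * (P.card - 1) ≤ (P.card - 1) * ((B + 1) * numPinned P x) := by
      calc (P.card - 1) * (P.card - 1) = (P.card - 1) ^ 2 := (sq _).symm
        _ ≤ numPinned P x * iso P x := h1
        _ ≤ numPinned P x * ((P.card - 1) * (B + 1)) := Nat.mul_le_mul_left _ hxI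
        _ = (P.card - 1) * ((B + 1) * numPinned P x) := by ring
    exact Nat.le_of_mul_le_mul_left h2 h0

lemma numPinned_le (P : Finset (EuclideanSpace ℝ (Fin d))) (x : EuclideanSpace ℝ (Fin d))
    (hx : x ∈ P) : numPinned P x ≤ (P.offDiag.image fun pq => dist pq.1 pq.2).card := by
  refine card_le_card ?_
  intro r hr
  simp only [pinned, mem_image, mem_erase] at hr
  obtain ⟨y, ⟨hyx, hy⟩, rfl⟩ := hr
  exact mem_image.mpr ⟨(y, x), mem_offDiag.mpr ⟨hy, hx, hyx⟩, rfl⟩

lemma finrank_bisector (q r : EuclideanSpace ℝ (Fin d)) (hqr : q ≠ r) :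
    Module.finrank ℝ (AffineSubspace.perpBisector q r).direction + 1 = d := by
  obtain ⟨e, rfl⟩ : ∃ e, d = e + 1 := by
    rcases d with _ | e
    · exact absurd (Subsingleton.elim q r) hqr
    · exact ⟨e, rfl⟩
  have : Fact (Module.finrank ℝ (EuclideanSpace ℝ (Fin (e + 1))) = e + 1) := ⟨by simp⟩
  rw [AffineSubspace.direction_perpBisector,
    Submodule.finrank_orthogonal_span_singleton (n := e)
      (by simpa [sub_eq_zero] using hqr.symm)]

open Classical in
/-- **Distinct distances for sets without rich perpendicular bisectors.** -/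
theorem result (P : Finset (EuclideanSpace ℝ (Fin d))) (B : ℕ) :
    ((∀ H : AffineSubspace ℝ (EuclideanSpace ℝ (Fin d)),
        Module.finrank ℝ H.direction + 1 = d → (P.filter fun x => x ∈ H).card ≤ B) →
      BisectorBound P B) ∧
    (BisectorBound P B →
      (P.Nonempty → ∃ x ∈ P, P.card - 1 ≤ (B + 1) * numPinned P x) ∧
      P.card - 1 ≤ (B + 1) * (P.offDiag.image fun pq => dist pq.1 pq.2).card ∧
      (2 ≤ P.card → ((B + 1 : ℕ) : ℝ) ≤ (P.card : ℝ) ^ (1 - 2 / (d : ℝ)) / 2 →
        (P.card : ℝ) ^ (2 / (d : ℝ)) ≤ ((P.offDiag.image fun pq => dist pq.1 pq.2).card : ℝ))) := by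
  have main : BisectorBound P B →
      P.card - 1 ≤ (B + 1) * (P.offDiag.image fun pq => dist pq.1 pq.2).card := by
    intro hB
    rcases P.eq_empty_or_nonempty with h0 | h0
    · simp [h0]
    · obtain ⟨x, hx, hxk⟩ := exists_pin P B hB h0
      exact le_trans hxk (Nat.mul_le_mul_left _ (numPinned_le P x hx))
  refine ⟨fun h q _ r _ hqr => ?_, fun hB => ⟨exists_pin P B hB, main hB, ?_⟩⟩
  · refine le_trans (le_of_eq ?_) (h (AffineSubspace.perpBisector q r) (finrank_bisector q r hqr))
    congr 1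
    ext x
    simp only [mem_filter, AffineSubspace.mem_perpBisector_iff_dist_eq']
  · intro hn hK
    have hxk := main hB
    set D := (P.offDiag.image fun pq => dist pq.1 pq.2).card with hD
    have hn0 : (0 : ℝ) < (P.card : ℝ) := by
      have : 0 < P.card := by omega
      exact_mod_cast this
    have hn2 : (2 : ℝ) ≤ (P.card : ℝ) := by exact_mod_cast hn
    have hpow : (0 : ℝ) < (P.card : ℝ) ^ (1 - 2 / (d : ℝ)) := Real.rpow_pos_of_pos hn0 _
    have h1 : ((P.card : ℝ) - 1) ≤ ((B + 1 : ℕ) : ℝ) * (D : ℝ) := by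
      have : ((P.card - 1 : ℕ) : ℝ) ≤ (((B + 1) * D : ℕ) : ℝ) := by
        exact_mod_cast hxk
      rw [Nat.cast_sub (by omega), Nat.cast_mul] at this
      simpa using this
    have h2 : ((P.card : ℝ) - 1) ≤ (P.card : ℝ) ^ (1 - 2 / (d : ℝ)) / 2 * (D : ℝ) :=
      le_trans h1 (mul_le_mul_of_nonneg_right hK (Nat.cast_nonneg _))
    have h3 : (P.card : ℝ) ^ (2 / (d : ℝ)) = (P.card : ℝ) / (P.card : ℝ) ^ (1 - 2 / (d : ℝ)) := by
      rw [eq_div_iff hpow.ne', ← Real.rpow_add hn0]
      simp
    rw [h3, div_le_iff₀ hpow]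
    nlinarith [h2]

end Vale.Agent.Results.P054.PoorBisectors
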