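import Vale.Agent.Results.P054.A_PinnedDenseGrid
import Vale.Agent.Results.P054.PoorBisectors

/-!
# P054: the two different partial results in one theorem

(1) every point of a density-`δ` subset of the grid `{1,…,t}^d`, `d ≥ 3`, determines at least
`(δ^2/31604) t^2` distinct distances;
(2) sets without rich perpendicular bisectors (in particular without rich hyperplanes) satisfy the
conjectured bound.
-/

namespace Vale.Agent.Results.P054.A_Combined

open Vale.Agent.Results.P054.PoorBisectors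

open Classical in
theorem result :
    (∀ (d : ℕ), 3 ≤ d → ∀ δ : ℝ, 0 < δ → ∀ (t : ℕ) (P : Finset (EuclideanSpace ℝ (Fin d))),
      (∀ p ∈ P, ∀ i, ∃ k : ℕ, 1 ≤ k ∧ k ≤ t ∧ p i = k) →
      δ * (t:ℝ)^d ≤ P.card → 2 ≤ P.card →
      ∀ p ∈ P,
        δ^2 / 31604 * (t:ℝ)^2 ≤ (((P.erase p).image (fun q => dist p q)).card : ℝ) ∧
        δ^2 / 31604 * (P.card : ℝ)^((2:ℝ)/d) ≤
          (((P.erase p).image (fun q => dist p q)).card : ℝ)) ∧
    (∀ (d : ℕ) (P : Finset (EuclideanSpace ℝ (Fin d))) (B : ℕ),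
      ((∀ H : AffineSubspace ℝ (EuclideanSpace ℝ (Fin d)),
          Module.finrank ℝ H.direction + 1 = d → (P.filter fun x => x ∈ H).card ≤ B) →
        BisectorBound P B) ∧
      (BisectorBound P B →
        (P.Nonempty → ∃ x ∈ P, P.card - 1 ≤ (B + 1) * numPinned P x) ∧
        P.card - 1 ≤ (B + 1) * (P.offDiag.image fun pq => dist pq.1 pq.2).card ∧
        (2 ≤ P.card → ((B + 1 : ℕ) : ℝ) ≤ (P.card : ℝ) ^ (1 - 2 / (d : ℝ)) / 2 →
          (P.card : ℝ) ^ (2 / (d : ℝ)) ≤
            ((P.offDiag.image fun pq => dist pq.1 pq.2).card : ℝ)))) :=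
  ⟨fun d hd δ hδ t P hgrid hdense h2 =>
      Vale.Agent.Results.P054.A_PinnedDenseGrid.result d hd δ hδ t P hgrid hdense h2,
    fun _ P B => Vale.Agent.Results.P054.PoorBisectors.result P B⟩

end Vale.Agent.Results.P054.A_Combined
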