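import Vale.Agent.Lib.P054.PinMain

/-!
# P054: pinned distinct distances in dense subsets of the integer grid, every `d ≥ 3`

Let `P` be a subset of the grid `{1,…,t}^d` (`d ≥ 3`) with `|P| ≥ δ t^d` and `|P| ≥ 2`.  Then EVERY
point `p` of `P` determines at least `(δ^2/31604) t^2 ≥ (δ^2/31604) |P|^{2/d}` distinct distances
to the other points of `P`.
-/

namespace Vale.Agent.Results.P054.A_PinnedDenseGrid

open Vale.Agent.Lib.P054

theorem result (d : ℕ) (hd : 3 ≤ d) (δ : ℝ) (hδ : 0 < δ) (t : ℕ)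
    (P : Finset (EuclideanSpace ℝ (Fin d)))
    (hgrid : ∀ p ∈ P, ∀ i, ∃ k : ℕ, 1 ≤ k ∧ k ≤ t ∧ p i = k)
    (hdense : δ * (t:ℝ)^d ≤ P.card) (h2 : 2 ≤ P.card) :
    ∀ p ∈ P,
      δ^2 / 31604 * (t:ℝ)^2 ≤ (((P.erase p).image (fun q => dist p q)).card : ℝ) ∧
      δ^2 / 31604 * (P.card : ℝ)^((2:ℝ)/d) ≤
        (((P.erase p).image (fun q => dist p q)).card : ℝ) :=
  fun p hp => pinned_dense_grid d hd δ hδ t P hgrid hdense h2 p hp

end Vale.Agent.Results.P054.A_PinnedDenseGrid
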