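import Mathlib
import Vale.Agent.Lib.P054.Grid
import Vale.Agent.Lib.P054.Energy

/-!
# P054: the distinct-distances conjecture for dense subsets of the integer grid, every `d ≥ 3`

Every subset `P` of the grid `{1,…,t}^d` (`d ≥ 3`) with `|P| ≥ δ t^d` and `|P| ≥ 2` determines at
least `c · t^2 ≥ c · |P|^{2/d}` distinct distances, with `c = δ^3/(432 · 7901 · d^2)`.
-/

namespace Vale.Agent.Results.P054.DenseGridAll

open Vale.Agent.Lib.P054

theorem result (d : ℕ) (hd : 3 ≤ d) (δ : ℝ) (hδ : 0 < δ) (t : ℕ)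
    (P : Finset (EuclideanSpace ℝ (Fin d)))
    (hgrid : ∀ p ∈ P, ∀ i, ∃ k : ℕ, 1 ≤ k ∧ k ≤ t ∧ p i = k)
    (hdense : δ * (t:ℝ)^d ≤ P.card) (h2 : 2 ≤ P.card) :
    δ^3 / (432 * 7901 * d^2) * (t:ℝ)^2 ≤
      ((P.offDiag.image (fun pq => dist pq.1 pq.2)).card : ℝ) ∧
    δ^3 / (432 * 7901 * d^2) * (P.card : ℝ)^((2:ℝ)/d) ≤
      ((P.offDiag.image (fun pq => dist pq.1 pq.2)).card : ℝ) :=
  dense_grid_general d (by omega) 7901 (by norm_num) (rich_three hd) δ hδ t P hgrid hdense h2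

end Vale.Agent.Results.P054.DenseGridAll
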