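import Mathlib
import Vale.Agent.Lib.P054.Grid

/-!
# P054: the distinct-distances conjecture for dense subsets of the integer grid, `d ≥ 4`

Every subset `P` of the grid `{1,…,t}^d` (`d ≥ 4`) with `|P| ≥ δ t^d` and `|P| ≥ 2` determines at
least `δ^3/(432 d^2) · t^2 ≥ δ^3/(432 d^2) · |P|^{2/d}` distinct distances.
-/

namespace Vale.Agent.Results.P054.DenseGridFour

open Vale.Agent.Lib.P054

theorem result (d : ℕ) (hd : 4 ≤ d) (δ : ℝ) (hδ : 0 < δ) (t : ℕ)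
    (P : Finset (EuclideanSpace ℝ (Fin d)))
    (hgrid : ∀ p ∈ P, ∀ i, ∃ k : ℕ, 1 ≤ k ∧ k ≤ t ∧ p i = k)
    (hdense : δ * (t:ℝ)^d ≤ P.card) (h2 : 2 ≤ P.card) :
    δ^3 / (432 * d^2) * (t:ℝ)^2 ≤ ((P.offDiag.image (fun pq => dist pq.1 pq.2)).card : ℝ) ∧
    δ^3 / (432 * d^2) * (P.card : ℝ)^((2:ℝ)/d) ≤
      ((P.offDiag.image (fun pq => dist pq.1 pq.2)).card : ℝ) := by
  have rich : ∀ s : ℕ, ∃ S : Finset ℤ,
      (∀ N ∈ S, N ≠ 0 ∧ ∃ v : Fin d → ℤ, (∀ i, 0 ≤ v i ∧ v i ≤ s) ∧ nsq v = N) ∧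
      (s:ℝ)^2 ≤ 1 * S.card := by
    intro s
    refine ⟨Finset.Icc (1:ℤ) ((s^2 : ℕ) : ℤ), ?_, ?_⟩
    · intro N hN
      rw [Finset.mem_Icc] at hN
      refine ⟨by omega, ?_⟩
      obtain ⟨M, rfl⟩ : ∃ M : ℕ, N = M := ⟨N.toNat, by omega⟩
      have hM : M ≤ s^2 := by exact_mod_cast hN.2
      exact exists_vec_four hd s M hM
    · rw [Int.card_Icc]
      have : (((s^2 : ℕ) : ℤ) + 1 - 1).toNat = s^2 := by omega
      rw [this]
      push_cast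
      linarith
  have h := dense_grid_general d (by omega) 1 le_rfl rich δ hδ t P hgrid hdense h2
  simpa using h

end Vale.Agent.Results.P054.DenseGridFour
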